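import Vale.Agent.Lib.P040Z.FinalParts

/-!
Straight-line drawings of `K_{m,n}` as `x`-monotone drawings.
-/

namespace Vale.Agent.Lib.P040R

open Finset Vale.Agent.Lib.P040 Vale.Agent.Lib.P040M Vale.Agent.Lib.P040Z

/-- The value at `t` of the line through `p` and `q`. -/
noncomputable def lineVal (p q : ℝ × ℝ) (t : ℝ) : ℝ :=
  p.2 + (q.2 - p.2) / (q.1 - p.1) * (t - p.1)

lemma lineVal_left (p q : ℝ × ℝ) : lineVal p q p.1 = p.2 := by
  simp [lineVal]

lemma lineVal_right (p q : ℝ × ℝ) (h : p.1 ≠ q.1) : lineVal p q q.1 = q.2 := by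
  have h' : q.1 - p.1 ≠ 0 := sub_ne_zero.2 h.symm
  unfold lineVal
  field_simp
  ring

lemma lineVal_continuous (p q : ℝ × ℝ) : Continuous (lineVal p q) := by
  unfold lineVal
  fun_prop

lemma mem_segment_of_uIcc (p q : ℝ × ℝ) (h : p.1 ≠ q.1) {t : ℝ} (ht : t ∈ Set.uIcc p.1 q.1) :
    (t, lineVal p q t) ∈ segment ℝ p q := by
  have h' : q.1 - p.1 ≠ 0 := sub_ne_zero.2 h.symm
  obtain ⟨θ, hθ⟩ : ∃ θ, θ = (t - p.1) / (q.1 - p.1) := ⟨_, rfl⟩
  have hθt : t = p.1 + θ * (q.1 - p.1) := by
    rw [hθ]; field_simp; ring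
  have h0 : 0 ≤ θ ∧ θ ≤ 1 := by
    rcases lt_or_gt_of_ne h with hlt | hlt
    · rw [Set.uIcc_of_le hlt.le] at ht
      have hd : 0 < q.1 - p.1 := by linarith
      rw [hθ]
      exact ⟨div_nonneg (by linarith [ht.1]) hd.le, (div_le_one hd).2 (by linarith [ht.2])⟩
    · rw [Set.uIcc_of_ge hlt.le] at ht
      have hd : q.1 - p.1 < 0 := by linarith
      rw [hθ]
      exact ⟨div_nonneg_of_nonpos (by linarith [ht.2]) hd.le,
        (div_le_one_of_neg hd).2 (by linarith [ht.1])⟩
  refine ⟨1 - θ, θ, by linarith [h0.2], h0.1, by ring, ?_⟩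
  refine Prod.ext ?_ ?_
  · simp only [Prod.fst_add, Prod.smul_fst, smul_eq_mul]
    rw [hθt]; ring
  · simp only [Prod.snd_add, Prod.smul_snd, smul_eq_mul]
    unfold lineVal
    rw [hθt]
    field_simp
    ring

/-- A straight-line drawing of `K_{m,n}`: points with distinct first coordinates, blues numbered by
first coordinate, no third vertex on a segment from a red to a blue vertex. -/
structure StraightDrawing (m n : ℕ) where
  R : Fin m → ℝ × ℝ
  B : Fin n → ℝ × ℝ
  xR_inj : Function.Injective fun r => (R r).1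
  xB_mono : StrictMono fun b => (B b).1
  x_ne : ∀ r b, (R r).1 ≠ (B b).1
  avoid_red : ∀ r b s, s ≠ r → R s ∉ segment ℝ (R r) (B b)
  avoid_blue : ∀ r b c, c ≠ b → B c ∉ segment ℝ (R r) (B b)

namespace StraightDrawing

variable {m n : ℕ} (S : StraightDrawing m n)

/-- The straight-line drawing as an `x`-monotone drawing. -/
noncomputable def toMono : MonoDrawing m n where
  xR := fun r => (S.R r).1
  xB := fun b => (S.B b).1
  yR := fun r => (S.R r).2
  yB := fun b => (S.B b).2
  xR_inj := S.xR_inj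
  xB_mono := S.xB_mono
  x_ne := S.x_ne
  edge := fun r b => lineVal (S.R r) (S.B b)
  cont := fun r b => (lineVal_continuous _ _).continuousOn
  at_red := fun r b => lineVal_left _ _
  at_blue := fun r b => lineVal_right _ _ (S.x_ne r b)
  avoid_red := by
    intro r b s hs ht he
    apply S.avoid_red r b s hs
    have h := mem_segment_of_uIcc (S.R r) (S.B b) (S.x_ne r b) ht
    rw [he] at h
    exact h
  avoid_blue := by
    intro r b c hc ht he
    apply S.avoid_blue r b c hc
    have h := mem_segment_of_uIcc (S.R r) (S.B b) (S.x_ne r b) ht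
    rw [he] at h
    exact h

theorem starSimple : StarSimple S.toMono := by
  intro r b c hbc t hb hc ht he
  change t ∈ Set.uIcc (S.R r).1 (S.B b).1 at hb
  change t ∈ Set.uIcc (S.R r).1 (S.B c).1 at hc
  change t ≠ (S.R r).1 at ht
  change lineVal (S.R r) (S.B b) t = lineVal (S.R r) (S.B c) t at he
  have hne : t - (S.R r).1 ≠ 0 := sub_ne_zero.2 ht
  -- equal slopes
  have hsl : ((S.B b).2 - (S.R r).2) / ((S.B b).1 - (S.R r).1) =
      ((S.B c).2 - (S.R r).2) / ((S.B c).1 - (S.R r).1) := by
    unfold lineVal at he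
    have h2 := add_left_cancel he
    exact mul_right_cancel₀ hne h2
  have hall : ∀ τ, lineVal (S.R r) (S.B b) τ = lineVal (S.R r) (S.B c) τ := by
    intro τ
    unfold lineVal
    rw [hsl]
  -- the blue vertices have different first coordinates
  have hx : (S.B b).1 ≠ (S.B c).1 := fun h => hbc (S.xB_mono.injective h)
  have hvb : lineVal (S.R r) (S.B c) (S.B b).1 = (S.B b).2 := by
    rw [← hall]; exact lineVal_right _ _ (S.x_ne r b)
  have hvc : lineVal (S.R r) (S.B b) (S.B c).1 = (S.B c).2 := by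
    rw [hall]; exact lineVal_right _ _ (S.x_ne r c)
  have key1 : (S.B b).1 ∈ Set.uIcc (S.R r).1 (S.B c).1 → False := by
    intro hm
    apply S.avoid_blue r c b hbc
    have h := mem_segment_of_uIcc (S.R r) (S.B c) (S.x_ne r c) hm
    rw [hvb] at h
    exact h
  have key2 : (S.B c).1 ∈ Set.uIcc (S.R r).1 (S.B b).1 → False := by
    intro hm
    apply S.avoid_blue r b c hbc.symm
    have h := mem_segment_of_uIcc (S.R r) (S.B b) (S.x_ne r b) hm
    rw [hvc] at h
    exact h
  -- both on the same side of the red vertex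
  rcases lt_or_gt_of_ne ht with hlt | hlt
  · -- t below the red vertex: both blues are below
    have hb1 : (S.B b).1 < (S.R r).1 := by
      rcases le_total (S.R r).1 (S.B b).1 with h | h
      · rw [Set.uIcc_of_le h] at hb; linarith [hb.1]
      · exact lt_of_le_of_ne h (S.x_ne r b).symm
    have hc1 : (S.B c).1 < (S.R r).1 := by
      rcases le_total (S.R r).1 (S.B c).1 with h | h
      · rw [Set.uIcc_of_le h] at hc; linarith [hc.1]
      · exact lt_of_le_of_ne h (S.x_ne r c).symm
    rcases le_total (S.B b).1 (S.B c).1 with h | h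
    · apply key2
      rw [Set.uIcc_of_ge hb1.le]
      exact ⟨h, hc1.le⟩
    · apply key1
      rw [Set.uIcc_of_ge hc1.le]
      exact ⟨h, hb1.le⟩
  · have hb1 : (S.R r).1 < (S.B b).1 := by
      rcases le_total (S.R r).1 (S.B b).1 with h | h
      · exact lt_of_le_of_ne h (S.x_ne r b)
      · rw [Set.uIcc_of_ge h] at hb; linarith [hb.2]
    have hc1 : (S.R r).1 < (S.B c).1 := by
      rcases le_total (S.R r).1 (S.B c).1 with h | h
      · exact lt_of_le_of_ne h (S.x_ne r c)
      · rw [Set.uIcc_of_ge h] at hc; linarith [hc.2]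
    rcases le_total (S.B b).1 (S.B c).1 with h | h
    · apply key1
      rw [Set.uIcc_of_le hc1.le]
      exact ⟨hb1.le, h⟩
    · apply key2
      rw [Set.uIcc_of_le hb1.le]
      exact ⟨hc1.le, h⟩

open Classical in
/-- The number of pairs of vertex-disjoint edges whose segments have a common point. -/
noncomputable def crossingPairs : ℕ :=
  ((univ : Finset (Fin m × Fin m × Fin n × Fin n)).filter fun q =>
    q.1 < q.2.1 ∧ q.2.2.1 ≠ q.2.2.2 ∧
      (segment ℝ (S.R q.1) (S.B q.2.2.1) ∩ segment ℝ (S.R q.2.1) (S.B q.2.2.2)).Nonempty).card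

theorem meetingPairs_le : S.toMono.meetingPairs ≤ S.crossingPairs := by
  classical
  unfold MonoDrawing.meetingPairs crossingPairs
  refine Finset.card_le_card ?_
  intro q hq
  simp only [mem_filter, mem_univ, true_and] at hq ⊢
  refine ⟨hq.1, hq.2.1, ?_⟩
  obtain ⟨t, h1, h2, h3⟩ := hq.2.2
  refine ⟨(t, lineVal (S.R q.1) (S.B q.2.2.1) t), ?_, ?_⟩
  · exact mem_segment_of_uIcc _ _ (S.x_ne _ _) h1
  · have h3' : lineVal (S.R q.1) (S.B q.2.2.1) t = lineVal (S.R q.2.1) (S.B q.2.2.2) t := h3
    rw [h3']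
    exact mem_segment_of_uIcc _ _ (S.x_ne _ _) h2

/-- From the bound for `x`-monotone drawings to straight-line drawings. -/
theorem zar_le_crossingPairs
    (hmain : ∀ (m n : ℕ) (D : MonoDrawing m n), StarSimple D → zar m * zar n ≤ D.meetingPairs) :
    zar m * zar n ≤ S.crossingPairs :=
  (hmain m n S.toMono S.starSimple).trans S.meetingPairs_le

end StraightDrawing

end Vale.Agent.Lib.P040R
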